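import Mathlib

namespace Vale.Agent.Lib.P047L

open MeasureTheory ProbabilityTheory Filter Topology Finset
open scoped NNReal ENNReal BoundedContinuousFunction Real

variable {Y : Type*} [Fintype Y] [Nonempty Y] [MeasurableSpace Y] [MeasurableSingletonClass Y]

/-- The uniform probability measure on a finite type. -/
noncomputable def unifM (Y : Type*) [Fintype Y] [Nonempty Y] [MeasurableSpace Y] : Measure Y :=
  (PMF.uniformOfFintype Y).toMeasure

instance : IsProbabilityMeasure (unifM Y) := by
  unfold unifM; infer_instance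

lemma unifM_singleton (y : Y) : (unifM Y) {y} = ((Fintype.card Y : ℝ≥0∞))⁻¹ := by
  unfold unifM
  rw [PMF.toMeasure_apply_singleton _ _ (measurableSet_singleton y)]
  simp [PMF.uniformOfFintype_apply]

lemma integral_unifM (g : Y → ℝ) : ∫ y, g y ∂(unifM Y) = (∑ y, g y) / Fintype.card Y := by
  rw [integral_fintype Integrable.of_finite]
  simp only [Measure.real, unifM_singleton, smul_eq_mul]
  rw [Finset.sum_div]
  refine Finset.sum_congr rfl fun y _ => ?_
  simp [ENNReal.toReal_inv]
  ring

/-- The infinite product of uniform measures. -/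
noncomputable def iidM (Y : Type*) [Fintype Y] [Nonempty Y] [MeasurableSpace Y] : Measure (ℕ → Y) :=
  Measure.infinitePi (fun _ => unifM Y)

instance : IsProbabilityMeasure (iidM Y) := by
  unfold iidM; infer_instance

lemma integral_eval (g : Y → ℝ) (k : ℕ) :
    ∫ ω, g (ω k) ∂(iidM Y) = (∑ y, g y) / Fintype.card Y := by
  rw [← integral_unifM]
  have hm := measurePreserving_eval_infinitePi (fun _ : ℕ => unifM Y) k
  have h2 : ∫ x, g (Function.eval k x) ∂(Measure.infinitePi (fun _ : ℕ => unifM Y)) =
      ∫ y, g y ∂(unifM Y) := by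
    have h3 := integral_map (μ := Measure.infinitePi (fun _ : ℕ => unifM Y))
      hm.measurable.aemeasurable (f := g) ((Measurable.of_discrete (f := g)).aestronglyMeasurable)
    rw [hm.map_eq] at h3
    exact h3.symm
  simpa [iidM, Function.eval] using h2

/-- Marginal computation for the expected absolute sum. -/
lemma integral_abs_sum (h : Y → ℝ) (n : ℕ) :
    ∫ ω, |∑ k ∈ range n, h (ω k)| ∂(iidM Y) =
      (∑ z : (↥(range n)) → Y, |∑ j, h (z j)|) / (Fintype.card Y : ℝ) ^ n := by
  classical
  set G : ((↥(range n)) → Y) → ℝ := fun z => |∑ j, h (z j)| with hG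
  have h1 : ∀ ω : ℕ → Y, |∑ k ∈ range n, h (ω k)| = G ((range n).restrict ω) := by
    intro ω
    simp only [hG, Finset.restrict]
    congr 1
    exact (Finset.sum_coe_sort (range n) (fun k => h (ω k))).symm
  simp_rw [h1]
  have hmeas : Measurable (fun ω : ℕ → Y => (range n).restrict ω) :=
    Finset.measurable_restrict _
  have h2 : ∫ ω, G ((range n).restrict ω) ∂(iidM Y) =
      ∫ z, G z ∂((iidM Y).map (range n).restrict) := by
    rw [integral_map hmeas.aemeasurable]
    exact (Measurable.of_discrete (f := G)).aestronglyMeasurable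
  rw [h2]
  have h3 : (iidM Y).map (range n).restrict = Measure.pi (fun _ : ↥(range n) => unifM Y) := by
    unfold iidM
    exact Measure.infinitePi_map_restrict _
  rw [h3, integral_fintype Integrable.of_finite, Finset.sum_div]
  refine Finset.sum_congr rfl fun z _ => ?_
  simp only [Measure.real, Measure.pi_singleton, unifM_singleton, smul_eq_mul]
  simp [ENNReal.toReal_inv, Finset.prod_const]
  rw [div_eq_mul_inv, mul_comm]
  rfl

/-- The first absolute moment of a centred Gaussian. -/
lemma integral_abs_gaussian {v : ℝ≥0} (hv : v ≠ 0) :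
    ∫ x, |x| ∂(gaussianReal 0 v) = Real.sqrt (2 * v / π) := by
  have hvpos : (0 : ℝ) < v := by positivity
  rw [integral_gaussianReal_eq_integral_smul hv]
  have h1 : ∀ x : ℝ, gaussianPDFReal 0 v x • |x| =
      (fun r : ℝ => (Real.sqrt (2 * π * v))⁻¹ * (r * Real.exp (-(1 / (2 * v)) * r ^ 2))) |x| := by
    intro x
    simp only [gaussianPDFReal, smul_eq_mul, sub_zero, sq_abs]
    have : -x ^ 2 / (2 * (v : ℝ)) = -(1 / (2 * (v : ℝ))) * x ^ 2 := by field_simp
    rw [this]; ring
  rw [integral_congr_ae (Eventually.of_forall h1)]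
  rw [integral_comp_abs (f := fun r : ℝ =>
    (Real.sqrt (2 * π * v))⁻¹ * (r * Real.exp (-(1 / (2 * v)) * r ^ 2)))]
  rw [MeasureTheory.integral_const_mul]
  have h2 : ∫ r in Set.Ioi (0 : ℝ), r * Real.exp (-(1 / (2 * (v : ℝ))) * r ^ 2) = (v : ℝ) := by
    have := integral_rpow_mul_exp_neg_mul_rpow (p := 2) (q := 1) (b := 1 / (2 * (v : ℝ)))
      (by norm_num) (by norm_num) (by positivity)
    simp only [Real.rpow_one] at this
    have h3 : ∫ r in Set.Ioi (0 : ℝ), r * Real.exp (-(1 / (2 * (v : ℝ))) * r ^ 2) =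
        ∫ r in Set.Ioi (0 : ℝ), r * Real.exp (-(1 / (2 * (v : ℝ))) * r ^ (2 : ℝ)) := by
      refine setIntegral_congr_fun measurableSet_Ioi fun r _ => ?_
      simp
    rw [h3, this]
    have h4 : ((1 : ℝ) + 1) / 2 = 1 := by norm_num
    rw [h4, Real.Gamma_one, show (-((1 : ℝ) + 1) / 2) = -1 by norm_num, Real.rpow_neg_one]
    field_simp
  rw [h2]
  have h6 : (0 : ℝ) < 2 * π * v := by positivity
  have h7 : Real.sqrt (2 * (v : ℝ) / π) * Real.sqrt (2 * π * v) = 2 * v := by
    rw [← Real.sqrt_mul (by positivity)]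
    have : 2 * (v : ℝ) / π * (2 * π * v) = (2 * v) ^ 2 := by field_simp
    rw [this, Real.sqrt_sq (by positivity)]
  have h8 : Real.sqrt (2 * π * v) ≠ 0 := (Real.sqrt_pos.mpr h6).ne'
  field_simp
  nlinarith [h7]

/-- CLT form: the expected absolute sum of i.i.d. bounded mean zero labels has the sharp
asymptotic lower bound. -/
theorem eventually_expect_abs (h : Y → ℝ) (h0 : ∑ y, h y = 0) {D : ℝ}
    (hD : D = (∑ y, h y ^ 2) / Fintype.card Y) (hDpos : 0 < D) {c : ℝ}
    (hc : c < Real.sqrt (2 * D / π)) :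
    ∀ᶠ n : ℕ in atTop, c * Real.sqrt n ≤
      (∑ z : (↥(range n)) → Y, |∑ j, h (z j)|) / (Fintype.card Y : ℝ) ^ n := by
  classical
  -- the process
  set P := iidM Y with hP
  set X : ℕ → (ℕ → Y) → ℝ := fun k ω => h (ω k) with hX
  have hmeasX : ∀ k, Measurable (X k) := fun k =>
    (Measurable.of_discrete (f := h)).comp (measurable_pi_apply k)
  have hindep : iIndepFun X P := by
    have := iIndepFun_infinitePi (P := fun _ : ℕ => unifM Y) (X := fun _ => h)
      (fun _ => Measurable.of_discrete)
    exact this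
  have hident : ∀ i, IdentDistrib (X i) (X 0) P P := by
    intro i
    refine ⟨(hmeasX i).aemeasurable, (hmeasX 0).aemeasurable, ?_⟩
    have hm : ∀ k, P.map (X k) = (unifM Y).map h := by
      intro k
      have h1 := measurePreserving_eval_infinitePi (fun _ : ℕ => unifM Y) k
      have : X k = h ∘ Function.eval k := rfl
      rw [this, ← Measure.map_map Measurable.of_discrete h1.measurable]
      rw [hP]
      unfold iidM
      rw [h1.map_eq]
    rw [hm i, hm 0]
  have hbound : ∃ C : ℝ, ∀ y, |h y| ≤ C := by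
    refine ⟨∑ y, |h y|, fun y => ?_⟩
    exact Finset.single_le_sum (f := fun y => |h y|) (fun _ _ => abs_nonneg _) (Finset.mem_univ y)
  obtain ⟨C, hC⟩ := hbound
  have hmem : MemLp (X 0) 2 P := by
    refine MemLp.of_bound (hmeasX 0).aestronglyMeasurable C ?_
    exact Eventually.of_forall fun ω => by simpa [hX] using hC (ω 0)
  have hmean : P[X 0] = 0 := by
    have := integral_eval (Y := Y) h 0
    simpa [h0, hX, hP] using this
  have hvar : Var[X 0; P] = D := by
    rw [variance_eq_sub hmem, hmean]
    have := integral_eval (Y := Y) (fun y => h y ^ 2) 0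
    simp only [Pi.pow_apply, hX]
    rw [hD]
    simpa [hP] using this
  set v : ℝ≥0 := (Var[X 0; P]).toNNReal with hv
  have hvD : (v : ℝ) = D := by
    rw [hv, hvar, Real.coe_toNNReal _ hDpos.le]
  have hv0 : v ≠ 0 := by
    intro hz
    rw [hz] at hvD
    simp at hvD
    linarith
  have hlaw : HasLaw (id : ℝ → ℝ) (gaussianReal 0 v) (gaussianReal 0 v) :=
    ⟨aemeasurable_id, Measure.map_id⟩
  have clt := tendstoInDistribution_inv_sqrt_mul_sum_sub hlaw hmem hindep hident
  have hconv := ProbabilityMeasure.tendsto_iff_forall_integral_tendsto.mp clt.tendsto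
  -- truncation level
  have habsint : Integrable (fun x : ℝ => |x|) (gaussianReal 0 v) := by
    have := (memLp_id_gaussianReal (μ := 0) (v := v) 1).integrable (by norm_num)
    exact this.abs
  have htrunc : Tendsto (fun M : ℕ => ∫ x, min |x| (M : ℝ) ∂(gaussianReal 0 v)) atTop
      (𝓝 (∫ x, |x| ∂(gaussianReal 0 v))) := by
    refine tendsto_integral_of_dominated_convergence (fun x => |x|) ?_ habsint ?_ ?_
    · intro M
      exact (Measurable.min measurable_id.abs measurable_const).aestronglyMeasurable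
    · intro M
      refine Eventually.of_forall fun x => ?_
      rw [Real.norm_of_nonneg (le_min (abs_nonneg _) (Nat.cast_nonneg _))]
      exact min_le_left _ _
    · refine Eventually.of_forall fun x => ?_
      refine tendsto_const_nhds.congr' ?_
      obtain ⟨N, hN⟩ := exists_nat_ge |x|
      filter_upwards [eventually_ge_atTop N] with M hM
      rw [min_eq_left]
      exact hN.trans (by exact_mod_cast hM)
  rw [integral_abs_gaussian hv0, hvD] at htrunc
  obtain ⟨M, hM⟩ := (htrunc.eventually (lt_mem_nhds hc)).exists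
  -- bounded continuous test function
  let g : ℝ →ᵇ ℝ := BoundedContinuousFunction.ofNormedAddCommGroup (fun x : ℝ => min |x| (M : ℝ))
    (by fun_prop) (M : ℝ) (by
      intro x
      rw [Real.norm_of_nonneg (le_min (abs_nonneg _) (Nat.cast_nonneg _))]
      exact min_le_right _ _)
  have hlim := hconv g
  have hlim2 : Tendsto (fun i : ℕ => ∫ x, g x ∂(P.map (fun ω => (Real.sqrt i)⁻¹ *
      (∑ k ∈ range i, X k ω - i * P[X 0])))) atTop (𝓝 (∫ x, g x ∂((gaussianReal 0 v).map id))) := hlim
  have hlim' : c < ∫ x, g x ∂((gaussianReal 0 v).map id) := by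
    rw [Measure.map_id]
    exact hM
  filter_upwards [hlim2.eventually (lt_mem_nhds hlim'), eventually_gt_atTop 0] with n hn hn0
  have hsqrt : 0 < Real.sqrt (n : ℝ) := Real.sqrt_pos.mpr (by exact_mod_cast hn0)
  -- rewrite the integral
  set Z : (ℕ → Y) → ℝ := fun ω => (Real.sqrt n)⁻¹ * (∑ k ∈ range n, X k ω - n * P[X 0]) with hZ
  have hZm : Measurable Z := by
    have : ∀ k, Measurable (X k) := hmeasX
    exact (Finset.measurable_sum _ (fun k _ => hmeasX k)).sub_const _ |>.const_mul _
  have hn' : ∫ x, g x ∂(P.map Z) ≤ (Real.sqrt n)⁻¹ * ∫ ω, |∑ k ∈ range n, h (ω k)| ∂P := by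
    rw [integral_map hZm.aemeasurable g.continuous.aestronglyMeasurable]
    rw [← integral_const_mul]
    refine integral_mono (g.integrable _ |>.comp_measurable hZm) ?_ ?_
    · refine Integrable.const_mul ?_ _
      have hbd : ∀ ω : ℕ → Y, |∑ k ∈ range n, h (ω k)| ≤ n * C := by
        intro ω
        calc |∑ k ∈ range n, h (ω k)| ≤ ∑ k ∈ range n, |h (ω k)| := Finset.abs_sum_le_sum_abs _ _
          _ ≤ ∑ k ∈ range n, C := Finset.sum_le_sum fun k _ => hC _
          _ = n * C := by simp
      refine Integrable.of_bound ?_ (n * C) ?_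
      · exact ((Finset.measurable_sum _ (fun k _ => hmeasX k)).abs).aestronglyMeasurable
      · refine Eventually.of_forall fun ω => ?_
        rw [Real.norm_of_nonneg (abs_nonneg _)]
        exact hbd ω
    · intro ω
      have : g (Z ω) = min |Z ω| (M : ℝ) := rfl
      simp only [this]
      refine (min_le_left _ _).trans ?_
      simp only [hZ, hmean, mul_zero, sub_zero, abs_mul, abs_inv]
      rw [abs_of_pos hsqrt]
  have hrw : ∫ ω, |∑ k ∈ range n, h (ω k)| ∂P =
      (∑ z : (↥(range n)) → Y, |∑ j, h (z j)|) / (Fintype.card Y : ℝ) ^ n := integral_abs_sum h n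
  rw [← hrw]
  have hfin : c < (Real.sqrt n)⁻¹ * ∫ ω, |∑ k ∈ range n, h (ω k)| ∂P :=
    lt_of_lt_of_le hn hn'
  have := (lt_inv_mul_iff₀ hsqrt).mp hfin
  linarith [mul_comm c (Real.sqrt n)]

end Vale.Agent.Lib.P047L
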