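import Vale.Agent.Lib.P047L.Pol

namespace Vale.Agent.Lib.P047L

open Finset

variable {T B : Type*} [Fintype T] [DecidableEq T] [Fintype B] [DecidableEq B]

/-- Every function of the label `h` has degree at most `e`. -/
def AllFunsDeg (h : (B → Bool) → ℤ) (e : ℕ) : Prop :=
  ∀ H : ℤ → ℝ, (fun y => H (h y)) ∈ Pol B e

/-- The sum of the signs of a block. -/
noncomputable def LL (y : B → Bool) : ℝ := ∑ b, sg (y b)

/-- On each fibre of the label `h`, the mean of the sum of signs equals the label. -/
def MeanProp (h : (B → Bool) → ℤ) : Prop :=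
  ∀ H : ℤ → ℝ, ∑ y, H (h y) * (LL y - (h y : ℝ)) = 0

lemma block_mem (j : T) {d : ℕ} {g : (B → Bool) → ℝ} (hg : g ∈ Pol B d) :
    (fun x : T × B → Bool => g (fun b => x (j, b))) ∈ Pol (T × B) d :=
  Pol_comap (fun b => (j, b)) (fun _ _ h => (Prod.mk.inj h).2) hg

lemma deg_fun_sum {h : (B → Bool) → ℤ} {e : ℕ} (hh : AllFunsDeg h e) (J : Finset T) :
    ∀ G : ℤ → ℝ, (fun x : T × B → Bool => G (∑ j ∈ J, h (fun b => x (j, b))))
      ∈ Pol (T × B) (J.card * e) := by
  induction J using Finset.induction_on with
  | empty =>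
    intro G
    simpa using const_mem_Pol (ι := T × B) (G 0) 0
  | insert j J hj ih =>
    intro G
    classical
    have key : (fun x : T × B → Bool => G (∑ i ∈ insert j J, h (fun b => x (i, b)))) =
        fun x => ∑ v ∈ Finset.univ.image h,
          (if h (fun b => x (j, b)) = v then (1 : ℝ) else 0) *
            G (v + ∑ i ∈ J, h (fun b => x (i, b))) := by
      funext x
      have e1 : ∑ i ∈ insert j J, h (fun b => x (i, b)) =
          h (fun b => x (j, b)) + ∑ i ∈ J, h (fun b => x (i, b)) := Finset.sum_insert hj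
      rw [e1]
      have hmem : h (fun b => x (j, b)) ∈ Finset.univ.image h :=
        Finset.mem_image_of_mem h (Finset.mem_univ _)
      rw [Finset.sum_eq_single_of_mem _ hmem]
      · simp
      · intro v _ hv
        simp [Ne.symm hv]
    rw [key]
    refine sum_fun_mem_Pol _ (fun v x => (if h (fun b => x (j, b)) = v then (1 : ℝ) else 0) *
            G (v + ∑ i ∈ J, h (fun b => x (i, b)))) fun v _ => ?_
    have h1 : (fun x : T × B → Bool => (if h (fun b => x (j, b)) = v then (1 : ℝ) else 0))
        ∈ Pol (T × B) e :=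
      block_mem j (hh (fun w => if w = v then 1 else 0))
    have h2 := ih (fun s => G (v + s))
    have h3 := mul_mem_Pol h1 h2
    have : (insert j J).card * e = e + J.card * e := by
      rw [Finset.card_insert_of_notMem hj]; ring
    rw [this]
    exact h3

/-- Swapping one block out and in: the mean property transfers to the product. -/
lemma sum_block_mean {h : (B → Bool) → ℤ} (hm : MeanProp h) (F : ℤ → ℝ) (j : T) :
    ∑ z : T → B → Bool, F (∑ i, h (z i)) * (LL (z j) - (h (z j) : ℝ)) = 0 := by
  classical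
  set Φ : (T → B → Bool) → ℝ := fun z => F (∑ i, h (z i)) * (LL (z j) - (h (z j) : ℝ)) with hΦ
  -- involution on pairs
  let e : ((T → B → Bool) × (B → Bool)) → ((T → B → Bool) × (B → Bool)) :=
    fun p => (Function.update p.1 j p.2, p.1 j)
  have he : Function.Involutive e := by
    rintro ⟨z, y⟩
    simp [e]
  have h1 : ∑ p : (T → B → Bool) × (B → Bool), Φ (e p).1 =
      ∑ p : (T → B → Bool) × (B → Bool), Φ p.1 :=
    Equiv.sum_comp he.toPerm (fun p => Φ p.1)
  have h2 : ∑ p : (T → B → Bool) × (B → Bool), Φ (e p).1 = 0 := by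
    rw [Fintype.sum_prod_type]
    refine Finset.sum_eq_zero fun z _ => ?_
    have := hm (fun v => F ((∑ i, h (z i)) - h (z j) + v))
    rw [← this]
    refine Finset.sum_congr rfl fun y _ => ?_
    have hs : ∑ i, h (Function.update z j y i) = (∑ i, h (z i)) - h (z j) + h y := by
      have h3 : ∀ w : T → B → Bool, ∑ i, h (w i) = h (w j) + ∑ i ∈ Finset.univ.erase j, h (w i) := by
        intro w
        exact (Finset.add_sum_erase _ (fun i => h (w i)) (Finset.mem_univ j)).symm
      rw [h3 (Function.update z j y), h3 z]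
      have h4 : ∑ i ∈ Finset.univ.erase j, h (Function.update z j y i) =
          ∑ i ∈ Finset.univ.erase j, h (z i) := by
        refine Finset.sum_congr rfl fun i hi => ?_
        rw [Function.update_of_ne (Finset.ne_of_mem_erase hi)]
      rw [h4]
      simp
      ring
    simp [Φ, e, hs]
  have h3 : ∑ p : (T → B → Bool) × (B → Bool), Φ p.1 =
      (Fintype.card (B → Bool) : ℝ) * ∑ z, Φ z := by
    rw [Fintype.sum_prod_type]
    simp [Finset.mul_sum]
  have h4 : (Fintype.card (B → Bool) : ℝ) ≠ 0 := by
    exact_mod_cast Fintype.card_ne_zero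
  rw [h2] at h1
  rw [h3] at h1
  have := (mul_eq_zero.mp h1.symm).resolve_left h4
  exact this

/-- The threshold outer function. -/
noncomputable def thr (s : ℤ) : ℝ := if 0 ≤ s then 1 else -1

lemma thr_mul (s : ℤ) : thr s * (s : ℝ) = |(s : ℝ)| := by
  unfold thr
  split_ifs with h
  · rw [abs_of_nonneg (by exact_mod_cast h)]; ring
  · rw [abs_of_neg (by exact_mod_cast (not_le.mp h))]; ring

/-- The composed function on the cube with index `T × B`. -/
noncomputable def composed (h : (B → Bool) → ℤ) (x : T × B → Bool) : ℝ :=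
  thr (∑ j, h (fun b => x (j, b)))

lemma composed_mem {h : (B → Bool) → ℤ} {e : ℕ} (hh : AllFunsDeg h e) :
    composed (T := T) h ∈ Pol (T × B) (Fintype.card T * e) := by
  have := deg_fun_sum (T := T) hh Finset.univ thr
  rw [Finset.card_univ] at this
  exact this

lemma composed_bool (h : (B → Bool) → ℤ) (x : T × B → Bool) :
    composed h x = 1 ∨ composed h x = -1 := by
  unfold composed thr
  split_ifs <;> simp

/-- The sum of the level one coefficients of a general function on the cube. -/
lemma sum_coefG_singleton {ι : Type*} [Fintype ι] [DecidableEq ι] (f : (ι → Bool) → ℝ) :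
    ∑ i, coefG f {i} = (∑ x, f x * ∑ i, sg (x i)) / 2 ^ Fintype.card ι := by
  simp only [coefG, chiG, Finset.prod_singleton, Finset.mul_sum]
  rw [← Finset.sum_div]
  congr 1
  rw [Finset.sum_comm]

lemma composed_levelOne {h : (B → Bool) → ℤ} (hm : MeanProp h) :
    ∑ i, coefG (composed (T := T) h) {i} =
      (∑ z : T → B → Bool, |((∑ j, h (z j) : ℤ) : ℝ)|) / 2 ^ (Fintype.card T * Fintype.card B) := by
  rw [sum_coefG_singleton]
  have hc : Fintype.card (T × B) = Fintype.card T * Fintype.card B := Fintype.card_prod _ _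
  rw [hc]
  congr 1
  have h1 : ∑ x : T × B → Bool, composed h x * ∑ i, sg (x i) =
      ∑ z : T → B → Bool, thr (∑ j, h (z j)) * ∑ j, LL (z j) := by
    refine Fintype.sum_equiv (Equiv.curry T B Bool) _ _ fun x => ?_
    simp only [composed, LL, Equiv.curry_apply, Function.curry_apply]
    rw [Fintype.sum_prod_type]
    rfl
  rw [h1]
  have h2 : ∀ z : T → B → Bool, thr (∑ j, h (z j)) * ∑ j, LL (z j) =
      |((∑ j, h (z j) : ℤ) : ℝ)| +
        ∑ j, thr (∑ i, h (z i)) * (LL (z j) - (h (z j) : ℝ)) := by
    intro z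
    rw [← thr_mul]
    push_cast
    rw [← Finset.mul_sum, ← mul_add, Finset.sum_sub_distrib]
    ring
  simp_rw [h2]
  rw [Finset.sum_add_distrib, Finset.sum_comm]
  have h3 : ∀ j : T, ∑ z : T → B → Bool, thr (∑ i, h (z i)) * (LL (z j) - (h (z j) : ℝ)) = 0 :=
    fun j => sum_block_mean hm thr j
  simp [h3]

end Vale.Agent.Lib.P047L
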