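import Vale.Agent.Lib.P047L.TermDef

namespace Vale.Agent.Lib.P047L

open Finset

variable {n : ℕ}

/-- The factor of the subcube indicator at a coordinate. -/
noncomputable def psi (A B : Finset (Fin n)) (l : Fin n) (b : Bool) : ℝ :=
  if l ∈ A then (if b then 1 else 0) else if l ∈ B then (if b then 0 else 1) else 1

/-- The sign fixed at a coordinate, zero if free. -/
noncomputable def sig (A B : Finset (Fin n)) (l : Fin n) : ℝ :=
  if l ∈ A then 1 else if l ∈ B then -1 else 0

lemma termInd_eq_prod {A B : Finset (Fin n)} (hd : Disjoint A B) (x : Fin n → Bool) :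
    termInd A B x = ∏ l, psi A B l (x l) := by
  unfold termInd
  split_ifs with h
  · symm
    refine Finset.prod_eq_one fun l _ => ?_
    unfold psi
    by_cases h1 : l ∈ A
    · rw [if_pos h1, h.1 l h1]; simp
    · rw [if_neg h1]
      by_cases h2 : l ∈ B
      · rw [if_pos h2, h.2 l h2]; simp
      · rw [if_neg h2]
  · symm
    have : ∃ l, psi A B l (x l) = 0 := by
      by_contra hne
      push Not at hne
      apply h
      constructor
      · intro i hi
        have := hne i
        unfold psi at this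
        rw [if_pos hi] at this
        cases hx : x i
        · simp [hx] at this
        · rfl
      · intro i hi
        have hiA : i ∉ A := Finset.disjoint_right.mp hd hi
        have := hne i
        unfold psi at this
        rw [if_neg hiA, if_pos hi] at this
        cases hx : x i
        · rfl
        · simp [hx] at this
    obtain ⟨l, hl⟩ := this
    exact Finset.prod_eq_zero (Finset.mem_univ l) hl

lemma sum_prod_bool (φ : Fin n → Bool → ℝ) :
    ∑ x : Fin n → Bool, ∏ l, φ l (x l) = ∏ l, (φ l true + φ l false) := by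
  have := (Finset.prod_univ_sum (fun _ : Fin n => (Finset.univ : Finset Bool)) φ).symm
  rw [Fintype.piFinset_univ] at this
  rw [this]
  refine Finset.prod_congr rfl fun l _ => ?_
  simp [add_comm]

lemma prod_three {A B : Finset (Fin n)} (hd : Disjoint A B) (a b c : ℝ) :
    ∏ l : Fin n, (if l ∈ A then a else if l ∈ B then b else c) =
      a ^ A.card * b ^ B.card * c ^ (n - A.card - B.card) := by
  rw [Finset.prod_ite, Finset.prod_ite]
  simp only [Finset.prod_const]
  have e1 : (Finset.univ.filter fun l : Fin n => l ∈ A) = A := by ext; simp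
  have e2 : ((Finset.univ.filter fun l : Fin n => l ∉ A).filter fun l => l ∈ B) = B := by
    ext l
    simp only [Finset.mem_filter, Finset.mem_univ, true_and, and_iff_right_iff_imp]
    exact fun h => Finset.disjoint_right.mp hd h
  have e3 : ((Finset.univ.filter fun l : Fin n => l ∉ A).filter fun l => l ∉ B).card =
      n - A.card - B.card := by
    have : ((Finset.univ.filter fun l : Fin n => l ∉ A).filter fun l => l ∉ B) =
        (Finset.univ \ A) \ B := by
      ext l; simp
    rw [this, Finset.card_sdiff_of_subset, Finset.card_sdiff_of_subset (Finset.subset_univ A)]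
    · simp
    · intro l hl
      simp only [Finset.mem_sdiff, Finset.mem_univ, true_and]
      exact Finset.disjoint_right.mp hd hl
  rw [e1, e2, e3]
  ring

/-- Number of cube points in the subcube times the character value. -/
lemma sum_term_chi {A B : Finset (Fin n)} (hd : Disjoint A B) (T : Finset (Fin n)) :
    ∑ x, termInd A B x * chi T x =
      (∏ l ∈ T, sig A B l) * 2 ^ (n - A.card - B.card) := by
  have h1 : ∀ x : Fin n → Bool, termInd A B x * chi T x =
      ∏ l, (psi A B l (x l) * (if l ∈ T then sg (x l) else 1)) := by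
    intro x
    rw [termInd_eq_prod hd, Finset.prod_mul_distrib]
    congr 1
    unfold chi
    rw [Finset.prod_ite_mem, Finset.univ_inter]
  simp_rw [h1]
  rw [sum_prod_bool (fun l b => psi A B l b * (if l ∈ T then sg b else 1))]
  have h2 : ∀ l, psi A B l true * (if l ∈ T then sg true else 1) +
      psi A B l false * (if l ∈ T then sg false else 1) =
      (if l ∈ T then sig A B l else 1) * (if l ∈ A then 1 else if l ∈ B then 1 else 2) := by
    intro l
    unfold psi sig
    by_cases hT : l ∈ T <;> by_cases hA : l ∈ A <;> by_cases hB : l ∈ B <;>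
      simp [hT, hA, hB, sg] <;> norm_num
  simp_rw [h2]
  rw [Finset.prod_mul_distrib, prod_three hd]
  rw [Finset.prod_ite_mem, Finset.univ_inter]
  simp

/-- Sum over the subcube of the exponential of the sum of signs. -/
lemma sum_term_exp {A B : Finset (Fin n)} (hd : Disjoint A B) (τ : ℝ) :
    ∑ x, termInd A B x * Real.exp (τ * ∑ i, sg (x i)) =
      Real.exp (τ * ((A.card : ℝ) - B.card)) * (2 * Real.cosh τ) ^ (n - A.card - B.card) := by
  have h1 : ∀ x : Fin n → Bool, termInd A B x * Real.exp (τ * ∑ i, sg (x i)) =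
      ∏ l, (psi A B l (x l) * Real.exp (τ * sg (x l))) := by
    intro x
    rw [termInd_eq_prod hd, Finset.prod_mul_distrib, Finset.mul_sum, Real.exp_sum]
  simp_rw [h1]
  rw [sum_prod_bool (fun l b => psi A B l b * Real.exp (τ * sg b))]
  have h2 : ∀ l, psi A B l true * Real.exp (τ * sg true) + psi A B l false * Real.exp (τ * sg false) =
      (if l ∈ A then Real.exp τ else if l ∈ B then Real.exp (-τ) else 2 * Real.cosh τ) := by
    intro l
    unfold psi
    by_cases hA : l ∈ A <;> by_cases hB : l ∈ B <;> simp [hA, hB, sg, Real.cosh_eq]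
    ring
  simp_rw [h2]
  rw [prod_three hd, ← Real.exp_nat_mul, ← Real.exp_nat_mul, ← Real.exp_add]
  congr 2
  ring

lemma sum_exp_cube (τ : ℝ) :
    ∑ x : Fin n → Bool, Real.exp (τ * ∑ i, sg (x i)) = (2 * Real.cosh τ) ^ n := by
  have := sum_term_exp (A := (∅ : Finset (Fin n))) (B := ∅) (Finset.disjoint_empty_left _) τ
  simpa [termInd] using this

/-- The sum over the subcube of the sum of signs. -/
lemma sum_term_L {A B : Finset (Fin n)} (hd : Disjoint A B) :
    ∑ x, termInd A B x * ∑ i, sg (x i) =
      ((A.card : ℝ) - B.card) * 2 ^ (n - A.card - B.card) := by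
  have h1 : ∀ i : Fin n, ∑ x, termInd A B x * sg (x i) =
      sig A B i * 2 ^ (n - A.card - B.card) := by
    intro i
    have := sum_term_chi hd {i}
    simpa [chi] using this
  simp_rw [Finset.mul_sum]
  rw [Finset.sum_comm]
  simp_rw [h1]
  rw [← Finset.sum_mul]
  congr 1
  unfold sig
  rw [Finset.sum_ite, Finset.sum_ite]
  simp only [Finset.sum_const, nsmul_eq_mul, mul_one, mul_neg, mul_zero]
  have e1 : (Finset.univ.filter fun l : Fin n => l ∈ A) = A := by ext; simp
  have e2 : ((Finset.univ.filter fun l : Fin n => l ∉ A).filter fun l => l ∈ B) = B := by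
    ext l
    simp only [Finset.mem_filter, Finset.mem_univ, true_and, and_iff_right_iff_imp]
    exact fun h => Finset.disjoint_right.mp hd h
  rw [e1, e2]
  simp
  ring

lemma card_fix_le {A B : Finset (Fin n)} (hd : Disjoint A B) : A.card + B.card ≤ n := by
  have := Finset.card_le_univ (A ∪ B)
  rw [Finset.card_union_of_disjoint hd] at this
  simpa using this

lemma sum_sig {A B : Finset (Fin n)} (hd : Disjoint A B) :
    ∑ l, sig A B l = (A.card : ℝ) - B.card := by
  unfold sig
  rw [Finset.sum_ite, Finset.sum_ite]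
  simp only [Finset.sum_const, nsmul_eq_mul, mul_one, mul_neg, mul_zero]
  have e1 : (Finset.univ.filter fun l : Fin n => l ∈ A) = A := by ext; simp
  have e2 : ((Finset.univ.filter fun l : Fin n => l ∉ A).filter fun l => l ∈ B) = B := by
    ext l
    simp only [Finset.mem_filter, Finset.mem_univ, true_and, and_iff_right_iff_imp]
    exact fun h => Finset.disjoint_right.mp hd h
  rw [e1, e2]
  simp
  ring

lemma sum_sig_sq {A B : Finset (Fin n)} (hd : Disjoint A B) :
    ∑ l, sig A B l ^ 2 = (A.card : ℝ) + B.card := by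
  have h : ∀ l, sig A B l ^ 2 = if l ∈ A then (1 : ℝ) else if l ∈ B then 1 else 0 := by
    intro l
    unfold sig
    by_cases hA : l ∈ A <;> by_cases hB : l ∈ B <;> simp [hA, hB]
  simp_rw [h]
  rw [Finset.sum_ite, Finset.sum_ite]
  simp only [Finset.sum_const, nsmul_eq_mul, mul_one, mul_zero]
  have e1 : (Finset.univ.filter fun l : Fin n => l ∈ A) = A := by ext; simp
  have e2 : ((Finset.univ.filter fun l : Fin n => l ∉ A).filter fun l => l ∈ B) = B := by
    ext l
    simp only [Finset.mem_filter, Finset.mem_univ, true_and, and_iff_right_iff_imp]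
    exact fun h => Finset.disjoint_right.mp hd h
  rw [e1, e2]
  simp

/-- The second moment of the sum of signs on a subcube. -/
lemma sum_term_L2 {A B : Finset (Fin n)} (hd : Disjoint A B) :
    ∑ x, termInd A B x * (∑ i, sg (x i)) ^ 2 =
      (((A.card : ℝ) - B.card) ^ 2 + n - (A.card + B.card)) * 2 ^ (n - A.card - B.card) := by
  have hpair : ∀ i j : Fin n, ∑ x, termInd A B x * (sg (x i) * sg (x j)) =
      (if i = j then 1 else sig A B i * sig A B j) * 2 ^ (n - A.card - B.card) := by
    intro i j
    by_cases hij : i = j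
    · subst hij
      have := sum_term_chi hd ∅
      simp only [chi, Finset.prod_empty, mul_one, one_mul] at this
      simp only [if_true]
      rw [one_mul, ← this]
      refine Finset.sum_congr rfl fun x _ => ?_
      have : sg (x i) * sg (x i) = 1 := by cases x i <;> simp [sg]
      rw [this, mul_one]
    · rw [if_neg hij]
      have := sum_term_chi hd {i, j}
      simp only [chi, Finset.prod_pair hij] at this
      exact this
  have h1 : ∀ x : Fin n → Bool, termInd A B x * (∑ i, sg (x i)) ^ 2 =
      ∑ i, ∑ j, termInd A B x * (sg (x i) * sg (x j)) := by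
    intro x
    rw [sq, Finset.sum_mul_sum]
    simp_rw [Finset.mul_sum]
  simp_rw [h1]
  rw [Finset.sum_comm]
  have h2 : ∀ i : Fin n, ∑ x : Fin n → Bool, ∑ j, termInd A B x * (sg (x i) * sg (x j)) =
      ∑ j, (if i = j then 1 else sig A B i * sig A B j) * 2 ^ (n - A.card - B.card) := by
    intro i
    rw [Finset.sum_comm]
    exact Finset.sum_congr rfl fun j _ => hpair i j
  simp_rw [h2]
  simp_rw [← Finset.sum_mul]
  congr 1
  have h3 : ∀ i j : Fin n, (if i = j then (1 : ℝ) else sig A B i * sig A B j) =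
      sig A B i * sig A B j + (if i = j then 1 - sig A B i ^ 2 else 0) := by
    intro i j
    by_cases hij : i = j
    · subst hij; simp; ring
    · simp [hij]
  simp_rw [h3]
  simp only [Finset.sum_add_distrib, Finset.sum_ite_eq, Finset.mem_univ, if_true]
  simp only [Finset.sum_sub_distrib, Finset.sum_const, Finset.card_univ, Fintype.card_fin,
    nsmul_eq_mul, mul_one]
  rw [sum_sig_sq hd, ← Finset.sum_mul_sum, sum_sig hd]
  ring

lemma levelOne_eq (f : (Fin n → Bool) → ℝ) :
    ∑ i, fhat f {i} = (∑ x, f x * ∑ i, sg (x i)) / 2 ^ n := by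
  simp only [fhat, chi, Finset.prod_singleton, Finset.mul_sum]
  rw [← Finset.sum_div, Finset.sum_comm]

section main

variable {ι : Type*} [Fintype ι]

/-- The sum of `h * L` over the cube for a combination of subcubes. -/
lemma sum_comb_L (A B : ι → Finset (Fin n)) (hdisj : ∀ j, Disjoint (A j) (B j)) (w : ι → ℝ) :
    ∑ x, (∑ j, w j * termInd (A j) (B j) x) * ∑ i, sg (x i) =
      ∑ j, w j * (((A j).card : ℝ) - (B j).card) * 2 ^ (n - (A j).card - (B j).card) := by
  simp_rw [Finset.sum_mul]
  rw [Finset.sum_comm]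
  refine Finset.sum_congr rfl fun j _ => ?_
  have := sum_term_L (hdisj j)
  simp_rw [mul_assoc]
  rw [← Finset.mul_sum, this]

/-- Main estimate for nonnegative combinations of subcubes bounded by one. -/
theorem conical_core (A B : ι → Finset (Fin n)) (hdisj : ∀ j, Disjoint (A j) (B j)) (d : ℕ)
    (hd : ∀ j, (A j).card + (B j).card ≤ d) (w : ι → ℝ) (hw : ∀ j, 0 ≤ w j)
    (hle : ∀ x, ∑ j, w j * termInd (A j) (B j) x ≤ 1) :
    (∑ x, (∑ j, w j * termInd (A j) (B j) x) * ∑ i, sg (x i)) / 2 ^ n ≤
      Real.sqrt (d / Real.exp 1) := by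
  classical
  rw [sum_comb_L A B hdisj w]
  rcases Nat.eq_zero_or_pos d with hd0 | hdpos
  · subst hd0
    have : ∀ j, ((A j).card : ℝ) - (B j).card = 0 := by
      intro j
      have := hd j
      have h1 : (A j).card = 0 := by omega
      have h2 : (B j).card = 0 := by omega
      simp [h1, h2]
    simp [this]
  have hdR : (0 : ℝ) < d := by exact_mod_cast hdpos
  set τ : ℝ := 1 / Real.sqrt d with hτ
  have hsq : 0 < Real.sqrt d := Real.sqrt_pos.mpr hdR
  have hτpos : 0 < τ := by positivity
  have hτsq : (d : ℝ) * τ ^ 2 = 1 := by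
    rw [hτ, div_pow, Real.sq_sqrt hdR.le]
    field_simp
  set c : ℝ := Real.cosh τ with hc
  have hc1 : 1 ≤ c := Real.one_le_cosh τ
  have hcpos : 0 < c := by linarith
  set S : ι → ℝ := fun j => ((A j).card : ℝ) - (B j).card with hS
  set m : ι → ℕ := fun j => n - (A j).card - (B j).card with hm
  -- the key bound
  have hkey : ∑ j, w j * (Real.exp (τ * S j) * 2 ^ m j) ≤ c ^ d * 2 ^ n := by
    have h1 : ∀ j, w j * (Real.exp (τ * S j) * 2 ^ m j) * c ^ n ≤
        c ^ d * (w j * (Real.exp (τ * S j) * (2 * c) ^ m j)) := by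
      intro j
      have hnj : n = m j + ((A j).card + (B j).card) := by
        have := card_fix_le (hdisj j)
        simp only [hm]
        omega
      have h2 : c ^ n ≤ c ^ m j * c ^ d := by
        rw [← pow_add]
        exact pow_le_pow_right₀ hc1 (by have := hd j; omega)
      have h3 : (2 * c) ^ m j = 2 ^ m j * c ^ m j := mul_pow _ _ _
      rw [h3]
      have h4 : 0 ≤ w j * (Real.exp (τ * S j) * 2 ^ m j) := by
        have := hw j
        positivity
      calc w j * (Real.exp (τ * S j) * 2 ^ m j) * c ^ n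
          ≤ w j * (Real.exp (τ * S j) * 2 ^ m j) * (c ^ m j * c ^ d) :=
            mul_le_mul_of_nonneg_left h2 h4
        _ = c ^ d * (w j * (Real.exp (τ * S j) * (2 ^ m j * c ^ m j))) := by ring
    have h5 : ∑ j, w j * (Real.exp (τ * S j) * (2 * c) ^ m j) ≤ (2 * c) ^ n := by
      calc ∑ j, w j * (Real.exp (τ * S j) * (2 * c) ^ m j)
          = ∑ x, (∑ j, w j * termInd (A j) (B j) x) * Real.exp (τ * ∑ i, sg (x i)) := by
            simp_rw [Finset.sum_mul]
            rw [Finset.sum_comm]
            refine Finset.sum_congr rfl fun j _ => ?_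
            have := sum_term_exp (hdisj j) τ
            simp_rw [mul_assoc]
            rw [← Finset.mul_sum, this]
        _ ≤ ∑ x : Fin n → Bool, Real.exp (τ * ∑ i, sg (x i)) := by
            refine Finset.sum_le_sum fun x _ => ?_
            have := hle x
            have h6 := Real.exp_pos (τ * ∑ i, sg (x i))
            nlinarith
        _ = (2 * c) ^ n := sum_exp_cube τ
    have h7 : (∑ j, w j * (Real.exp (τ * S j) * 2 ^ m j)) * c ^ n ≤ c ^ d * (2 * c) ^ n := by
      rw [Finset.sum_mul]
      calc ∑ j, w j * (Real.exp (τ * S j) * 2 ^ m j) * c ^ n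
          ≤ ∑ j, c ^ d * (w j * (Real.exp (τ * S j) * (2 * c) ^ m j)) :=
            Finset.sum_le_sum fun j _ => h1 j
        _ = c ^ d * ∑ j, w j * (Real.exp (τ * S j) * (2 * c) ^ m j) := by
            rw [Finset.mul_sum]
        _ ≤ c ^ d * (2 * c) ^ n := mul_le_mul_of_nonneg_left h5 (by positivity)
    have h8 : c ^ d * (2 * c) ^ n = c ^ d * 2 ^ n * c ^ n := by
      rw [mul_pow]; ring
    rw [h8] at h7
    exact le_of_mul_le_mul_right h7 (by positivity)
  -- pass to the level one sum
  have hlin : ∀ j, w j * S j * 2 ^ m j * (τ * Real.exp 1) ≤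
      w j * (Real.exp (τ * S j) * 2 ^ m j) := by
    intro j
    have h1 : τ * S j ≤ Real.exp (τ * S j - 1) := by
      have := Real.add_one_le_exp (τ * S j - 1)
      linarith
    have h2 : Real.exp (τ * S j) = Real.exp (τ * S j - 1) * Real.exp 1 := by
      rw [← Real.exp_add]; congr 1; ring
    have h3 : 0 ≤ w j * 2 ^ m j * Real.exp 1 := by
      have := hw j
      positivity
    have h4 := mul_le_mul_of_nonneg_left h1 h3
    rw [h2]
    nlinarith
  have hsum : (∑ j, w j * S j * 2 ^ m j) * (τ * Real.exp 1) ≤ c ^ d * 2 ^ n := by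
    rw [Finset.sum_mul]
    exact (Finset.sum_le_sum fun j _ => hlin j).trans hkey
  have hcd : c ^ d ≤ Real.exp (1 / 2) := by
    have h1 : c ≤ Real.exp (τ ^ 2 / 2) := Real.cosh_le_exp_half_sq τ
    calc c ^ d ≤ Real.exp (τ ^ 2 / 2) ^ d := pow_le_pow_left₀ hcpos.le h1 d
      _ = Real.exp (d * (τ ^ 2 / 2)) := by rw [← Real.exp_nat_mul]
      _ = Real.exp (1 / 2) := by
        congr 1
        linarith
  have h2n : (0 : ℝ) < 2 ^ n := by positivity
  have hepos : 0 < Real.exp 1 := Real.exp_pos 1
  have hfinal : (∑ j, w j * S j * 2 ^ m j) / 2 ^ n * (τ * Real.exp 1) ≤ Real.exp (1 / 2) := by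
    rw [div_mul_eq_mul_div, div_le_iff₀ h2n]
    exact hsum.trans (mul_le_mul_of_nonneg_right hcd h2n.le)
  have hgoal : Real.sqrt (d / Real.exp 1) * (τ * Real.exp 1) = Real.exp (1 / 2) := by
    have h1 : Real.sqrt (d / Real.exp 1) = Real.sqrt d / Real.sqrt (Real.exp 1) :=
      Real.sqrt_div hdR.le _
    have h2 : Real.sqrt (Real.exp 1) = Real.exp (1 / 2) := by
      rw [← Real.exp_half]
    have h3 : Real.exp 1 = Real.exp (1 / 2) * Real.exp (1 / 2) := by
      rw [← Real.exp_add]; norm_num
    rw [h1, h2, hτ]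
    have h4 : 0 < Real.exp (1 / 2) := Real.exp_pos _
    rw [h3]
    field_simp
  have hpos2 : 0 < τ * Real.exp 1 := by positivity
  rw [← hgoal] at hfinal
  exact le_of_mul_le_mul_right hfinal hpos2

/-- Bound for functions of the form `2 h - 1` with `h` a nonnegative combination of subcubes. -/
theorem conical_bound (A B : ι → Finset (Fin n)) (hdisj : ∀ j, Disjoint (A j) (B j)) (d : ℕ)
    (hd : ∀ j, (A j).card + (B j).card ≤ d) (w : ι → ℝ) (hw : ∀ j, 0 ≤ w j)
    (f : (Fin n → Bool) → ℝ) (hf : ∀ x, f x = 2 * (∑ j, w j * termInd (A j) (B j) x) - 1)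
    (hle : ∀ x, f x ≤ 1) :
    ∑ i, fhat f {i} ≤ 2 * Real.sqrt (d / Real.exp 1) := by
  have hle' : ∀ x, ∑ j, w j * termInd (A j) (B j) x ≤ 1 := by
    intro x
    have := hle x
    rw [hf x] at this
    linarith
  have h := conical_core A B hdisj d hd w hw hle'
  rw [levelOne_eq]
  have h0 : ∑ x : Fin n → Bool, ∑ i, sg (x i) = 0 := by
    rw [Finset.sum_comm]
    refine Finset.sum_eq_zero fun i _ => ?_
    have := sum_term_chi (A := (∅ : Finset (Fin n))) (B := ∅) (Finset.disjoint_empty_left _) {i}
    simpa [chi, termInd, sig] using this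
  have h1 : ∑ x, f x * ∑ i, sg (x i) =
      2 * ∑ x, (∑ j, w j * termInd (A j) (B j) x) * ∑ i, sg (x i) := by
    simp_rw [hf]
    simp_rw [sub_mul, mul_assoc]
    rw [Finset.sum_sub_distrib, ← Finset.mul_sum]
    simp only [one_mul]
    rw [h0, sub_zero]
  rw [h1, mul_div_assoc]
  linarith

/-- Bound for functions constant on the pieces of a partition of the cube into subcubes. -/
theorem partition_bound (A B : ι → Finset (Fin n)) (hdisj : ∀ j, Disjoint (A j) (B j))
    (hpart : ∀ x, ∑ j, termInd (A j) (B j) x = 1) (v : ι → ℝ) (hv : ∀ j, |v j| ≤ 1)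
    (f : (Fin n → Bool) → ℝ) (hf : ∀ x, f x = ∑ j, v j * termInd (A j) (B j) x) :
    ∑ i, fhat f {i} ≤
      Real.sqrt (∑ j, (((A j).card + (B j).card : ℕ) : ℝ) / 2 ^ ((A j).card + (B j).card)) := by
  classical
  have h2n : (0 : ℝ) < 2 ^ n := by positivity
  set S : ι → ℝ := fun j => ((A j).card : ℝ) - (B j).card with hS
  set k : ι → ℕ := fun j => (A j).card + (B j).card with hk
  set p : ι → ℝ := fun j => 1 / 2 ^ k j with hp
  have hppos : ∀ j, 0 < p j := fun j => by simp only [hp]; positivity
  have hm : ∀ j, (2 : ℝ) ^ (n - (A j).card - (B j).card) = p j * 2 ^ n := by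
    intro j
    have := card_fix_le (hdisj j)
    have h1 : n = (n - (A j).card - (B j).card) + k j := by simp only [hk]; omega
    have h2 : (2 : ℝ) ^ n = 2 ^ (n - (A j).card - (B j).card) * 2 ^ k j := by
      rw [← pow_add, ← h1]
    simp only [hp]
    rw [h2]
    field_simp
  -- total mass
  have hmass : ∑ j, p j = 1 := by
    have h1 : ∑ x : Fin n → Bool, ∑ j, termInd (A j) (B j) x = 2 ^ n := by
      simp [hpart]
    rw [Finset.sum_comm] at h1
    have h2 : ∀ j, ∑ x, termInd (A j) (B j) x = p j * 2 ^ n := by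
      intro j
      have := sum_term_chi (hdisj j) ∅
      simp only [chi, Finset.prod_empty, mul_one, one_mul] at this
      rw [this, hm]
    simp_rw [h2] at h1
    rw [← Finset.sum_mul] at h1
    exact mul_right_cancel₀ h2n.ne' (h1.trans (one_mul _).symm)
  -- second moments
  have hsecond : ∑ j, p j * S j ^ 2 = ∑ j, p j * (k j : ℝ) := by
    have h1 : ∑ x : Fin n → Bool, ∑ j, termInd (A j) (B j) x * (∑ i, sg (x i)) ^ 2 =
        ∑ x : Fin n → Bool, (∑ i, sg (x i)) ^ 2 := by
      refine Finset.sum_congr rfl fun x _ => ?_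
      rw [← Finset.sum_mul, hpart, one_mul]
    have h2 : ∑ x : Fin n → Bool, (∑ i, sg (x i)) ^ 2 = (n : ℝ) * 2 ^ n := by
      have := sum_term_L2 (A := (∅ : Finset (Fin n))) (B := ∅) (Finset.disjoint_empty_left _)
      simpa [termInd] using this
    rw [Finset.sum_comm] at h1
    have h3 : ∀ j, ∑ x, termInd (A j) (B j) x * (∑ i, sg (x i)) ^ 2 =
        (S j ^ 2 + n - k j) * (p j * 2 ^ n) := by
      intro j
      rw [sum_term_L2 (hdisj j), hm]
      simp only [hS, hk]
      push_cast
      ring
    simp_rw [h3] at h1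
    rw [h2] at h1
    have h4 : ∑ j, (S j ^ 2 + n - k j) * p j = n := by
      have h5 : (∑ j, (S j ^ 2 + n - k j) * p j) * 2 ^ n = n * 2 ^ n := by
        rw [Finset.sum_mul, ← h1]
        refine Finset.sum_congr rfl fun j _ => ?_
        ring
      exact mul_right_cancel₀ h2n.ne' h5
    have h6 : ∑ j, (S j ^ 2 + n - k j) * p j =
        ∑ j, p j * S j ^ 2 + n * ∑ j, p j - ∑ j, p j * (k j : ℝ) := by
      rw [Finset.mul_sum, ← Finset.sum_add_distrib, ← Finset.sum_sub_distrib]
      refine Finset.sum_congr rfl fun j _ => ?_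
      ring
    rw [h6, hmass] at h4
    linarith
  -- level one sum
  have hW : ∑ i, fhat f {i} = ∑ j, v j * (S j * p j) := by
    rw [levelOne_eq]
    have h1 : ∑ x, f x * ∑ i, sg (x i) =
        ∑ j, v j * (S j * (p j * 2 ^ n)) := by
      simp_rw [hf]
      simp_rw [Finset.sum_mul]
      rw [Finset.sum_comm]
      refine Finset.sum_congr rfl fun j _ => ?_
      simp_rw [mul_assoc]
      rw [← Finset.mul_sum, sum_term_L (hdisj j), hm]
    rw [h1, div_eq_iff h2n.ne', Finset.sum_mul]
    refine Finset.sum_congr rfl fun j _ => ?_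
    ring
  set a : ℝ := ∑ j, p j * |S j| with ha
  have hle1 : ∑ i, fhat f {i} ≤ a := by
    rw [hW, ha]
    refine Finset.sum_le_sum fun j _ => ?_
    have h1 : v j * S j ≤ |S j| := by
      calc v j * S j ≤ |v j * S j| := le_abs_self _
        _ = |v j| * |S j| := abs_mul _ _
        _ ≤ 1 * |S j| := mul_le_mul_of_nonneg_right (hv j) (abs_nonneg _)
        _ = |S j| := one_mul _
    have h2 := mul_le_mul_of_nonneg_left h1 (hppos j).le
    calc v j * (S j * p j) = p j * (v j * S j) := by ring
      _ ≤ p j * |S j| := h2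
  have hvar : a ^ 2 ≤ ∑ j, p j * S j ^ 2 := by
    have h0 : 0 ≤ ∑ j, p j * (|S j| - a) ^ 2 :=
      Finset.sum_nonneg fun j _ => mul_nonneg (hppos j).le (sq_nonneg _)
    have h1 : ∑ j, p j * (|S j| - a) ^ 2 =
        ∑ j, p j * S j ^ 2 - 2 * a * ∑ j, p j * |S j| + a ^ 2 * ∑ j, p j := by
      have h2 : ∀ j, p j * (|S j| - a) ^ 2 =
          p j * S j ^ 2 - 2 * a * (p j * |S j|) + a ^ 2 * p j := by
        intro j
        have : |S j| ^ 2 = S j ^ 2 := sq_abs _
        rw [← this]
        ring
      simp_rw [h2]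
      rw [Finset.sum_add_distrib, Finset.sum_sub_distrib, ← Finset.mul_sum, ← Finset.mul_sum]
    rw [h1, ← ha, hmass] at h0
    nlinarith
  have hfin : ∑ j, p j * S j ^ 2 =
      ∑ j, (((A j).card + (B j).card : ℕ) : ℝ) / 2 ^ ((A j).card + (B j).card) := by
    rw [hsecond]
    refine Finset.sum_congr rfl fun j _ => ?_
    simp only [hp, hk]
    ring
  rw [← hfin]
  refine hle1.trans ?_
  exact Real.le_sqrt_of_sq_le hvar

end main

end Vale.Agent.Lib.P047L
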