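import Mathlib

namespace Vale.Agent.Lib.P047L

/-- The sign of a bit: `sg true = 1` and `sg false = -1`. -/
noncomputable def sg (b : Bool) : ℝ := if b then 1 else -1

/-- The Walsh character of `S` at the sign vector encoded by `x`. -/
noncomputable def chi {n : ℕ} (S : Finset (Fin n)) (x : Fin n → Bool) : ℝ := ∏ i ∈ S, sg (x i)

/-- The Fourier coefficient of `f` at `S`: the average over the cube of `f * chi S`. -/
noncomputable def fhat {n : ℕ} (f : (Fin n → Bool) → ℝ) (S : Finset (Fin n)) : ℝ :=
  (∑ x, f x * chi S x) / 2 ^ n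

end Vale.Agent.Lib.P047L
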