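import Vale.Agent.Lib.P047L.Compose
import Vale.Agent.Lib.P047L.CLT

namespace Vale.Agent.Lib.P047L

open Finset Filter Topology MeasureTheory
open scoped Real

lemma transfer {ι : Type*} [Fintype ι] [DecidableEq ι] {d : ℕ} (f : (ι → Bool) → ℝ)
    (hf : ∀ x, f x = 1 ∨ f x = -1) (hd : f ∈ Pol ι d) :
    ∃ (n : ℕ) (g : (Fin n → Bool) → ℝ), (∀ x, g x = 1 ∨ g x = -1) ∧
      (∀ S : Finset (Fin n), d < S.card → fhat g S = 0) ∧
      ∑ i, fhat g {i} = ∑ i, coefG f {i} := by
  classical
  let e : ι ≃ Fin (Fintype.card ι) := Fintype.equivFin ι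
  let E : (ι → Bool) ≃ (Fin (Fintype.card ι) → Bool) := Equiv.arrowCongr e (Equiv.refl Bool)
  let g : (Fin (Fintype.card ι) → Bool) → ℝ := fun w => f (E.symm w)
  have hfhat : ∀ S : Finset (Fin (Fintype.card ι)),
      fhat g S = coefG f (S.map e.symm.toEmbedding) := by
    intro S
    unfold fhat coefG
    congr 1
    refine Fintype.sum_equiv E.symm _ _ fun w => ?_
    congr 1
    simp only [chi, chiG, Finset.prod_map]
    refine Finset.prod_congr rfl fun i _ => ?_
    simp [E]
  refine ⟨Fintype.card ι, g, fun x => hf _, fun S hS => ?_, ?_⟩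
  · rw [hfhat]
    exact coefG_eq_zero_of_mem hd (by simpa using hS)
  · simp only [hfhat]
    have : ∀ i : Fin (Fintype.card ι), coefG f (({i} : Finset _).map e.symm.toEmbedding) =
        coefG f {e.symm i} := by
      intro i; simp
    simp only [this]
    exact Equiv.sum_comp e.symm (fun j => coefG f {j})

lemma sum_LL_eq_zero {B : Type*} [Fintype B] [DecidableEq B] :
    ∑ y : B → Bool, LL y = 0 := by
  unfold LL
  rw [Finset.sum_comm]
  refine Finset.sum_eq_zero fun b _ => ?_
  have := sum_chiG_eq_zero (S := ({b} : Finset B)) (by simp)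
  simpa [chiG] using this

/-- From a gadget with label `h`, every function of which has degree at most `e`, and with the
mean property, one gets Boolean functions with a large level one sum at every large degree. -/
theorem main_of_gadget {B : Type} [Fintype B] [DecidableEq B] (h : (B → Bool) → ℤ) (e : ℕ)
    (he : 0 < e) (hh : AllFunsDeg h e) (hm : MeanProp h) (D : ℝ)
    (hD : D = (∑ y, ((h y : ℤ) : ℝ) ^ 2) / Fintype.card (B → Bool)) (hDpos : 0 < D)
    (c : ℝ) (hc : c < Real.sqrt (2 * D / (π * e))) :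
    ∀ᶠ d : ℕ in atTop, ∃ (n : ℕ) (f : (Fin n → Bool) → ℝ), (∀ x, f x = 1 ∨ f x = -1) ∧
      (∀ S : Finset (Fin n), d < S.card → fhat f S = 0) ∧
      c * Real.sqrt d ≤ ∑ i, fhat f {i} := by
  classical
  have hepos : (0 : ℝ) < e := by exact_mod_cast he
  set A : ℝ := Real.sqrt (2 * D / π) with hA
  have hApos : 0 < A := Real.sqrt_pos.mpr (by positivity)
  have hsq : Real.sqrt (2 * D / (π * e)) * Real.sqrt e = A := by
    rw [hA, ← Real.sqrt_mul (by positivity)]
    congr 1
    field_simp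
  have hsqe : 0 < Real.sqrt e := Real.sqrt_pos.mpr hepos
  have hlt : c * Real.sqrt e < A := by
    rw [← hsq]
    exact mul_lt_mul_of_pos_right hc hsqe
  obtain ⟨c1, hc1a, hc1b⟩ := exists_between (max_lt hlt hApos)
  have hc1c : c * Real.sqrt e < c1 := lt_of_le_of_lt (le_max_left _ _) hc1a
  have hc1p : 0 < c1 := lt_of_le_of_lt (le_max_right _ _) hc1a
  have h0 : ∑ y : B → Bool, ((h y : ℤ) : ℝ) = 0 := by
    have := hm (fun _ => 1)
    simp only [one_mul, Finset.sum_sub_distrib] at this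
    rw [sum_LL_eq_zero] at this
    linarith
  have hclt := eventually_expect_abs (Y := B → Bool) (fun y => ((h y : ℤ) : ℝ)) h0 hD hDpos
    (c := c1) hc1b
  have htend : Tendsto (fun d : ℕ => d / e) atTop atTop := Nat.tendsto_div_const_atTop he.ne'
  -- largeness of d
  set κ : ℝ := c1 ^ 2 / e - c ^ 2 with hκ
  have hκ' : 0 < κ ∨ c ≤ 0 := by
    by_cases hc0 : c ≤ 0
    · exact Or.inr hc0
    · left
      push Not at hc0
      have h1 : (c * Real.sqrt e) ^ 2 < c1 ^ 2 := by
        apply pow_lt_pow_left₀ hc1c (by positivity) (by norm_num)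
      rw [mul_pow, Real.sq_sqrt hepos.le] at h1
      rw [hκ, lt_sub_iff_add_lt, zero_add, lt_div_iff₀ hepos]
      exact h1
  obtain ⟨d1, hd1⟩ : ∃ d1 : ℕ, ∀ d : ℕ, d1 ≤ d → 0 < c → c ^ 2 * d ≤ c1 ^ 2 * ((d / e : ℕ) : ℝ) := by
    by_cases hc0 : 0 < c
    · have hκp : 0 < κ := by
        rcases hκ' with h | h
        · exact h
        · linarith
      obtain ⟨d1, hd1⟩ := exists_nat_ge (c1 ^ 2 / κ)
      refine ⟨d1, fun d hd _ => ?_⟩
      have h1 : (d : ℝ) ≥ c1 ^ 2 / κ := hd1.trans (by exact_mod_cast hd)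
      have h2 : κ * d ≥ c1 ^ 2 := by
        rw [ge_iff_le, div_le_iff₀ hκp] at h1
        linarith
      -- d / e > d / e real - 1
      have h3 : (d : ℝ) < e * (((d / e : ℕ) : ℝ) + 1) := by
        have := Nat.lt_mul_div_succ d he
        have h4 : d < e * (d / e + 1) := this
        exact_mod_cast h4
      have h5 : (d : ℝ) / e - 1 < ((d / e : ℕ) : ℝ) := by
        rw [sub_lt_iff_lt_add, div_lt_iff₀ hepos]
        linarith
      have h6 : c1 ^ 2 * ((d : ℝ) / e - 1) ≤ c1 ^ 2 * ((d / e : ℕ) : ℝ) :=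
        mul_le_mul_of_nonneg_left h5.le (by positivity)
      have h7 : c ^ 2 * d ≤ c1 ^ 2 * ((d : ℝ) / e - 1) := by
        have : c1 ^ 2 * ((d : ℝ) / e - 1) = (c1 ^ 2 / e) * d - c1 ^ 2 := by ring
        rw [this]
        rw [hκ] at h2
        nlinarith
      linarith
    · exact ⟨0, fun d _ h => absurd h hc0⟩
  filter_upwards [htend.eventually hclt, eventually_ge_atTop d1] with d hdc hdd
  set t := d / e with ht
  -- the composed function
  let T := ↥(range t)
  have hdeg : composed (T := T) h ∈ Pol (T × B) d := by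
    refine Pol_mono ?_ (composed_mem (T := T) hh)
    simp only [Fintype.card_coe, card_range, T]
    exact Nat.div_mul_le_self d e
  obtain ⟨n, g, hg1, hg2, hg3⟩ := transfer (composed (T := T) h) (composed_bool h) hdeg
  refine ⟨n, g, hg1, hg2, ?_⟩
  rw [hg3, composed_levelOne hm]
  have hcardT : Fintype.card T = t := by simp [T]
  have hcardY : (Fintype.card (B → Bool) : ℝ) ^ t = 2 ^ (Fintype.card T * Fintype.card B) := by
    rw [hcardT]
    simp only [Fintype.card_fun, Fintype.card_bool]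
    push_cast
    rw [← pow_mul, mul_comm]
  have hval : (∑ z : T → B → Bool, |((∑ j, h (z j) : ℤ) : ℝ)|) /
      2 ^ (Fintype.card T * Fintype.card B) =
      (∑ z : T → B → Bool, |∑ j, ((h (z j) : ℤ) : ℝ)|) / (Fintype.card (B → Bool) : ℝ) ^ t := by
    rw [hcardY]
    congr 1
    refine Finset.sum_congr rfl fun z _ => ?_
    push_cast
    rfl
  rw [hval]
  refine le_trans ?_ hdc
  by_cases hc0 : 0 < c
  · have h1 := hd1 d hdd hc0
    have h2 : Real.sqrt (c ^ 2 * d) ≤ Real.sqrt (c1 ^ 2 * (t : ℝ)) := Real.sqrt_le_sqrt h1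
    rw [Real.sqrt_mul (by positivity), Real.sqrt_mul (by positivity), Real.sqrt_sq hc0.le,
      Real.sqrt_sq hc1p.le] at h2
    exact h2
  · have h1 : c * Real.sqrt d ≤ 0 :=
      mul_nonpos_of_nonpos_of_nonneg (not_lt.mp hc0) (Real.sqrt_nonneg _)
    exact h1.trans (mul_nonneg hc1p.le (Real.sqrt_nonneg _))

end Vale.Agent.Lib.P047L
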