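import Vale.Agent.Lib.P047L.Final

namespace Vale.Agent.Lib.P047L

open Finset

/-- Integer sign of a bit. -/
def sZ (b : Bool) : ℤ := if b then 1 else -1

lemma sg_eq_sZ (b : Bool) : sg b = (sZ b : ℝ) := by cases b <;> simp [sg, sZ]

/-- The label of a triple of bits: `1` if all true, `-1` if all false, and `0` otherwise. -/
def labZ (p q r : Bool) : ℤ := if p && q && r then 1 else if !p && !q && !r then -1 else 0

lemma labZ_eq (p q r : Bool) :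
    4 * labZ p q r = sZ p + sZ q + sZ r + sZ p * sZ q * sZ r := by
  revert p q r; decide

lemma labZ_sq_eq (p q r : Bool) :
    4 * labZ p q r ^ 2 = 1 + sZ p * sZ q + sZ p * sZ r + sZ q * sZ r := by
  revert p q r; decide

section polys

variable {ι : Type*} [Fintype ι] [DecidableEq ι]

lemma add_mem_Pol' {d : ℕ} {g h : (ι → Bool) → ℝ} (hg : g ∈ Pol ι d) (hh : h ∈ Pol ι d) :
    (fun y => g y + h y) ∈ Pol ι d := (Pol ι d).add_mem hg hh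

lemma sub_mem_Pol' {d : ℕ} {g h : (ι → Bool) → ℝ} (hg : g ∈ Pol ι d) (hh : h ∈ Pol ι d) :
    (fun y => g y - h y) ∈ Pol ι d := (Pol ι d).sub_mem hg hh

lemma cmul_mem_Pol' {d : ℕ} (c : ℝ) {g : (ι → Bool) → ℝ} (hg : g ∈ Pol ι d) :
    (fun y => c * g y) ∈ Pol ι d := (Pol ι d).smul_mem c hg

lemma U_mem (i j k : ι) : (fun y : ι → Bool => ((labZ (y i) (y j) (y k) : ℤ) : ℝ)) ∈ Pol ι 3 := by
  have h1 : (fun y : ι → Bool => sg (y i)) ∈ Pol ι 3 := Pol_mono (by norm_num) (sg_mem_Pol i)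
  have h2 : (fun y : ι → Bool => sg (y j)) ∈ Pol ι 3 := Pol_mono (by norm_num) (sg_mem_Pol j)
  have h3 : (fun y : ι → Bool => sg (y k)) ∈ Pol ι 3 := Pol_mono (by norm_num) (sg_mem_Pol k)
  have h4 : (fun y : ι → Bool => sg (y i) * sg (y j) * sg (y k)) ∈ Pol ι 3 :=
    mul_mem_Pol (a := 2) (b := 1) (mul_mem_Pol (a := 1) (b := 1) (sg_mem_Pol i) (sg_mem_Pol j))
      (sg_mem_Pol k)
  have h5 := cmul_mem_Pol' (1 / 4 : ℝ) (add_mem_Pol' (add_mem_Pol' (add_mem_Pol' h1 h2) h3) h4)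
  have h7 : (fun y : ι → Bool => ((labZ (y i) (y j) (y k) : ℤ) : ℝ)) =
      fun y => (1 / 4 : ℝ) * (sg (y i) + sg (y j) + sg (y k) + sg (y i) * sg (y j) * sg (y k)) := by
    funext y
    have := labZ_eq (y i) (y j) (y k)
    have h6 : (4 : ℝ) * ((labZ (y i) (y j) (y k) : ℤ) : ℝ) =
        sZ (y i) + sZ (y j) + sZ (y k) + sZ (y i) * sZ (y j) * sZ (y k) := by
      exact_mod_cast this
    simp only [sg_eq_sZ]
    linarith
  rw [h7]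
  exact h5

lemma W_mem (i j k : ι) :
    (fun y : ι → Bool => ((labZ (y i) (y j) (y k) : ℤ) : ℝ) ^ 2) ∈ Pol ι 2 := by
  have h1 : (fun y : ι → Bool => sg (y i) * sg (y j)) ∈ Pol ι 2 :=
    mul_mem_Pol (a := 1) (b := 1) (sg_mem_Pol i) (sg_mem_Pol j)
  have h2 : (fun y : ι → Bool => sg (y i) * sg (y k)) ∈ Pol ι 2 :=
    mul_mem_Pol (a := 1) (b := 1) (sg_mem_Pol i) (sg_mem_Pol k)
  have h3 : (fun y : ι → Bool => sg (y j) * sg (y k)) ∈ Pol ι 2 :=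
    mul_mem_Pol (a := 1) (b := 1) (sg_mem_Pol j) (sg_mem_Pol k)
  have h4 : (fun _ : ι → Bool => (1 : ℝ)) ∈ Pol ι 2 := one_mem_Pol 2
  have h5 := cmul_mem_Pol' (1 / 4 : ℝ) (add_mem_Pol' (add_mem_Pol' (add_mem_Pol' h4 h1) h2) h3)
  have h7 : (fun y : ι → Bool => ((labZ (y i) (y j) (y k) : ℤ) : ℝ) ^ 2) =
      fun y => (1 / 4 : ℝ) * (1 + sg (y i) * sg (y j) + sg (y i) * sg (y k) +
        sg (y j) * sg (y k)) := by
    funext y
    have := labZ_sq_eq (y i) (y j) (y k)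
    have h6 : (4 : ℝ) * ((labZ (y i) (y j) (y k) : ℤ) : ℝ) ^ 2 =
        1 + sZ (y i) * sZ (y j) + sZ (y i) * sZ (y k) + sZ (y j) * sZ (y k) := by
      exact_mod_cast this
    simp only [sg_eq_sZ]
    linarith
  rw [h7]
  exact h5

end polys

/-- The rock-paper-scissors label of nine bits (integer form). -/
def cF (a0 a1 a2 a3 a4 a5 a6 a7 a8 : Bool) : ℤ :=
  labZ a0 a1 a2 * (1 - labZ a6 a7 a8 ^ 2) + labZ a3 a4 a5 * (1 - labZ a0 a1 a2 ^ 2) +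
    labZ a6 a7 a8 * (1 - labZ a3 a4 a5 ^ 2)

/-- The square of the rock-paper-scissors label (degree four form). -/
def gF (a0 a1 a2 a3 a4 a5 a6 a7 a8 : Bool) : ℤ :=
  labZ a0 a1 a2 ^ 2 + labZ a3 a4 a5 ^ 2 + labZ a6 a7 a8 ^ 2
    - labZ a0 a1 a2 ^ 2 * labZ a3 a4 a5 ^ 2
    - labZ a3 a4 a5 ^ 2 * labZ a6 a7 a8 ^ 2
    - labZ a0 a1 a2 ^ 2 * labZ a6 a7 a8 ^ 2

/-- The label of the ten bit gadget: three times the rock-paper-scissors label if that is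
non-zero, and the sign of the tenth bit otherwise. -/
def hF (a0 a1 a2 a3 a4 a5 a6 a7 a8 a9 : Bool) : ℤ :=
  if cF a0 a1 a2 a3 a4 a5 a6 a7 a8 ≠ 0 then 3 * cF a0 a1 a2 a3 a4 a5 a6 a7 a8 else sZ a9

/-- The sum of the signs of ten bits. -/
def LF (a0 a1 a2 a3 a4 a5 a6 a7 a8 a9 : Bool) : ℤ :=
  sZ a0 + sZ a1 + sZ a2 + sZ a3 + sZ a4 + sZ a5 + sZ a6 + sZ a7 + sZ a8 + sZ a9

lemma ind_p3 : ∀ a0 a1 a2 a3 a4 a5 a6 a7 a8 a9 : Bool,
    gF a0 a1 a2 a3 a4 a5 a6 a7 a8 + cF a0 a1 a2 a3 a4 a5 a6 a7 a8 =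
      if hF a0 a1 a2 a3 a4 a5 a6 a7 a8 a9 = 3 then 2 else 0 := by decide +kernel

lemma ind_m3 : ∀ a0 a1 a2 a3 a4 a5 a6 a7 a8 a9 : Bool,
    gF a0 a1 a2 a3 a4 a5 a6 a7 a8 - cF a0 a1 a2 a3 a4 a5 a6 a7 a8 =
      if hF a0 a1 a2 a3 a4 a5 a6 a7 a8 a9 = -3 then 2 else 0 := by decide +kernel

lemma ind_p1 : ∀ a0 a1 a2 a3 a4 a5 a6 a7 a8 a9 : Bool,
    (1 - gF a0 a1 a2 a3 a4 a5 a6 a7 a8) * (1 + sZ a9) =
      if hF a0 a1 a2 a3 a4 a5 a6 a7 a8 a9 = 1 then 2 else 0 := by decide +kernel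

lemma ind_m1 : ∀ a0 a1 a2 a3 a4 a5 a6 a7 a8 a9 : Bool,
    (1 - gF a0 a1 a2 a3 a4 a5 a6 a7 a8) * (1 - sZ a9) =
      if hF a0 a1 a2 a3 a4 a5 a6 a7 a8 a9 = -1 then 2 else 0 := by decide +kernel

lemma hF_vals : ∀ a0 a1 a2 a3 a4 a5 a6 a7 a8 a9 : Bool,
    hF a0 a1 a2 a3 a4 a5 a6 a7 a8 a9 = 3 ∨ hF a0 a1 a2 a3 a4 a5 a6 a7 a8 a9 = -3 ∨
    hF a0 a1 a2 a3 a4 a5 a6 a7 a8 a9 = 1 ∨ hF a0 a1 a2 a3 a4 a5 a6 a7 a8 a9 = -1 := by
  decide +kernel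

/-- The gadget label as a function on `Fin 10 → Bool`. -/
def h10 (y : Fin 10 → Bool) : ℤ := hF (y 0) (y 1) (y 2) (y 3) (y 4) (y 5) (y 6) (y 7) (y 8) (y 9)

/-- Real form of the label `c`. -/
noncomputable def cR (y : Fin 10 → Bool) : ℝ := ((cF (y 0) (y 1) (y 2) (y 3) (y 4) (y 5) (y 6) (y 7) (y 8) : ℤ) : ℝ)

/-- Real form of the function `g`. -/
noncomputable def gR (y : Fin 10 → Bool) : ℝ := ((gF (y 0) (y 1) (y 2) (y 3) (y 4) (y 5) (y 6) (y 7) (y 8) : ℤ) : ℝ)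

lemma cR_mem : cR ∈ Pol (Fin 10) 5 := by
  have u0 := U_mem (ι := Fin 10) 0 1 2
  have u1 := U_mem (ι := Fin 10) 3 4 5
  have u2 := U_mem (ι := Fin 10) 6 7 8
  have w0 := sub_mem_Pol' (one_mem_Pol (ι := Fin 10) 2) (W_mem (ι := Fin 10) 0 1 2)
  have w1 := sub_mem_Pol' (one_mem_Pol (ι := Fin 10) 2) (W_mem (ι := Fin 10) 3 4 5)
  have w2 := sub_mem_Pol' (one_mem_Pol (ι := Fin 10) 2) (W_mem (ι := Fin 10) 6 7 8)
  have t0 := mul_mem_Pol (a := 3) (b := 2) u0 w2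
  have t1 := mul_mem_Pol (a := 3) (b := 2) u1 w0
  have t2 := mul_mem_Pol (a := 3) (b := 2) u2 w1
  have := add_mem_Pol' (add_mem_Pol' t0 t1) t2
  convert this using 1
  funext y
  simp only [cR, cF]
  push_cast
  ring

lemma gR_mem : gR ∈ Pol (Fin 10) 4 := by
  have w0 := W_mem (ι := Fin 10) 0 1 2
  have w1 := W_mem (ι := Fin 10) 3 4 5
  have w2 := W_mem (ι := Fin 10) 6 7 8
  have w0' : _ ∈ Pol (Fin 10) 4 := Pol_mono (by norm_num) w0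
  have w1' : _ ∈ Pol (Fin 10) 4 := Pol_mono (by norm_num) w1
  have w2' : _ ∈ Pol (Fin 10) 4 := Pol_mono (by norm_num) w2
  have t0 := mul_mem_Pol (a := 2) (b := 2) w0 w1
  have t1 := mul_mem_Pol (a := 2) (b := 2) w1 w2
  have t2 := mul_mem_Pol (a := 2) (b := 2) w0 w2
  have := sub_mem_Pol' (sub_mem_Pol' (sub_mem_Pol' (add_mem_Pol' (add_mem_Pol' w0' w1') w2') t0) t1) t2
  convert this using 1
  funext y
  simp only [gR, gF]
  push_cast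
  ring

lemma h10_allFuns : AllFunsDeg h10 5 := by
  intro H
  have gm : gR ∈ Pol (Fin 10) 5 := Pol_mono (by norm_num) gR_mem
  have p3 := cmul_mem_Pol' (H 3 / 2) (add_mem_Pol' gm cR_mem)
  have m3 := cmul_mem_Pol' (H (-3) / 2) (sub_mem_Pol' gm cR_mem)
  have oneg : (fun y => 1 - gR y) ∈ Pol (Fin 10) 4 := sub_mem_Pol' (one_mem_Pol 4) gR_mem
  have sp : (fun y : Fin 10 → Bool => 1 + sg (y 9)) ∈ Pol (Fin 10) 1 :=
    add_mem_Pol' (one_mem_Pol 1) (sg_mem_Pol 9)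
  have sm : (fun y : Fin 10 → Bool => 1 - sg (y 9)) ∈ Pol (Fin 10) 1 :=
    sub_mem_Pol' (one_mem_Pol 1) (sg_mem_Pol 9)
  have p1 := cmul_mem_Pol' (H 1 / 2) (mul_mem_Pol (a := 4) (b := 1) oneg sp)
  have m1 := cmul_mem_Pol' (H (-1) / 2) (mul_mem_Pol (a := 4) (b := 1) oneg sm)
  have := add_mem_Pol' (add_mem_Pol' (add_mem_Pol' p3 m3) p1) m1
  convert this using 1
  funext y
  have i1 : gF (y 0) (y 1) (y 2) (y 3) (y 4) (y 5) (y 6) (y 7) (y 8) +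
      cF (y 0) (y 1) (y 2) (y 3) (y 4) (y 5) (y 6) (y 7) (y 8) = if h10 y = 3 then 2 else 0 :=
    ind_p3 (y 0) (y 1) (y 2) (y 3) (y 4) (y 5) (y 6) (y 7) (y 8) (y 9)
  have i2 : gF (y 0) (y 1) (y 2) (y 3) (y 4) (y 5) (y 6) (y 7) (y 8) -
      cF (y 0) (y 1) (y 2) (y 3) (y 4) (y 5) (y 6) (y 7) (y 8) = if h10 y = -3 then 2 else 0 :=
    ind_m3 (y 0) (y 1) (y 2) (y 3) (y 4) (y 5) (y 6) (y 7) (y 8) (y 9)
  have i3 : (1 - gF (y 0) (y 1) (y 2) (y 3) (y 4) (y 5) (y 6) (y 7) (y 8)) * (1 + sZ (y 9)) =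
      if h10 y = 1 then 2 else 0 :=
    ind_p1 (y 0) (y 1) (y 2) (y 3) (y 4) (y 5) (y 6) (y 7) (y 8) (y 9)
  have i4 : (1 - gF (y 0) (y 1) (y 2) (y 3) (y 4) (y 5) (y 6) (y 7) (y 8)) * (1 - sZ (y 9)) =
      if h10 y = -1 then 2 else 0 :=
    ind_m1 (y 0) (y 1) (y 2) (y 3) (y 4) (y 5) (y 6) (y 7) (y 8) (y 9)
  have hv := hF_vals (y 0) (y 1) (y 2) (y 3) (y 4) (y 5) (y 6) (y 7) (y 8) (y 9)
  have hs : sg (y 9) = ((sZ (y 9) : ℤ) : ℝ) := sg_eq_sZ _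
  have i1' : gR y + cR y = ((if h10 y = 3 then 2 else 0 : ℤ) : ℝ) := by
    rw [← i1]; simp only [gR, cR]; push_cast; ring
  have i2' : gR y - cR y = ((if h10 y = -3 then 2 else 0 : ℤ) : ℝ) := by
    rw [← i2]; simp only [gR, cR]; push_cast; ring
  have i3' : (1 - gR y) * (1 + sg (y 9)) = ((if h10 y = 1 then 2 else 0 : ℤ) : ℝ) := by
    rw [← i3, hs]; simp only [gR]; push_cast; ring
  have i4' : (1 - gR y) * (1 - sg (y 9)) = ((if h10 y = -1 then 2 else 0 : ℤ) : ℝ) := by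
    rw [← i4, hs]; simp only [gR]; push_cast; ring
  have e1 : H 3 / 2 * (gR y + cR y) + H (-3) / 2 * (gR y - cR y) +
      H 1 / 2 * ((1 - gR y) * (1 + sg (y 9))) + H (-1) / 2 * ((1 - gR y) * (1 - sg (y 9))) =
      H (h10 y) := by
    rw [i1', i2', i3', i4']
    have hv' : h10 y = 3 ∨ h10 y = -3 ∨ h10 y = 1 ∨ h10 y = -1 := hv
    rcases hv' with h | h | h | h <;> rw [h] <;> norm_num
  exact e1.symm

/-- Sum of signs, as an integer function on `Fin 10 → Bool`. -/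
def LZ10 (y : Fin 10 → Bool) : ℤ := LF (y 0) (y 1) (y 2) (y 3) (y 4) (y 5) (y 6) (y 7) (y 8) (y 9)

lemma mean_val : ∀ v : ℤ, (v = 3 ∨ v = -3 ∨ v = 1 ∨ v = -1) →
    ∑ y : Fin 10 → Bool, (if h10 y = v then LZ10 y - v else 0) = 0 := by
  intro v hv
  rcases hv with rfl | rfl | rfl | rfl
  · decide +kernel
  · decide +kernel
  · decide +kernel
  · decide +kernel

lemma sum_fin10 (f : Fin 10 → ℝ) :
    ∑ b, f b = f 0 + f 1 + f 2 + f 3 + f 4 + f 5 + f 6 + f 7 + f 8 + f 9 := by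
  have h : (Finset.univ : Finset (Fin 10)) = {0, 1, 2, 3, 4, 5, 6, 7, 8, 9} := by decide
  rw [h]
  repeat rw [Finset.sum_insert (by decide)]
  rw [Finset.sum_singleton]
  ring

lemma LL_eq (y : Fin 10 → Bool) : LL y = ((LZ10 y : ℤ) : ℝ) := by
  simp only [LL, LZ10, LF, sum_fin10, sg_eq_sZ]
  push_cast
  ring

lemma h10_meanProp : MeanProp h10 := by
  intro H
  have key : ∀ y : Fin 10 → Bool, H (h10 y) * (LL y - (h10 y : ℝ)) =
      H 3 * ((if h10 y = 3 then LZ10 y - 3 else 0 : ℤ) : ℝ) +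
      H (-3) * ((if h10 y = -3 then LZ10 y - (-3) else 0 : ℤ) : ℝ) +
      H 1 * ((if h10 y = 1 then LZ10 y - 1 else 0 : ℤ) : ℝ) +
      H (-1) * ((if h10 y = -1 then LZ10 y - (-1) else 0 : ℤ) : ℝ) := by
    intro y
    rw [LL_eq]
    have hv : h10 y = 3 ∨ h10 y = -3 ∨ h10 y = 1 ∨ h10 y = -1 :=
      hF_vals (y 0) (y 1) (y 2) (y 3) (y 4) (y 5) (y 6) (y 7) (y 8) (y 9)
    rcases hv with h | h | h | h <;> rw [h] <;> norm_num
  simp_rw [key]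
  simp only [Finset.sum_add_distrib, ← Finset.mul_sum]
  have e1 := mean_val 3 (by norm_num)
  have e2 := mean_val (-3) (by norm_num)
  have e3 := mean_val 1 (by norm_num)
  have e4 := mean_val (-1) (by norm_num)
  simp only [← Int.cast_sum, e1, e2, e3, e4]
  simp

lemma sum_h10_sq : ∑ y : Fin 10 → Bool, h10 y ^ 2 = 5632 := by decide +kernel

lemma D10 : (5.5 : ℝ) = (∑ y, ((h10 y : ℤ) : ℝ) ^ 2) / Fintype.card (Fin 10 → Bool) := by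
  have h1 : ∑ y, ((h10 y : ℤ) : ℝ) ^ 2 = 5632 := by
    have := sum_h10_sq
    exact_mod_cast this
  rw [h1]
  simp only [Fintype.card_fun, Fintype.card_bool, Fintype.card_fin]
  norm_num

/-- Main theorem for the gadget. -/
theorem asymp (c : ℝ) (hc : c < Real.sqrt (11 / (5 * Real.pi))) :
    ∀ᶠ d : ℕ in Filter.atTop, ∃ (n : ℕ) (f : (Fin n → Bool) → ℝ), (∀ x, f x = 1 ∨ f x = -1) ∧
      (∀ S : Finset (Fin n), d < S.card → fhat f S = 0) ∧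
      c * Real.sqrt d ≤ ∑ i, fhat f {i} := by
  refine main_of_gadget h10 5 (by norm_num) h10_allFuns h10_meanProp 5.5 D10 (by norm_num) c ?_
  convert hc using 2
  push_cast
  field_simp
  norm_num

end Vale.Agent.Lib.P047L
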