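import Vale.Agent.Lib.P047L.Defs

namespace Vale.Agent.Lib.P047L

open Finset

variable {ι : Type*} [Fintype ι] [DecidableEq ι]

/-- Walsh character on a general finite index type. -/
noncomputable def chiG (S : Finset ι) (x : ι → Bool) : ℝ := ∏ i ∈ S, sg (x i)

/-- Real functions on the cube of degree at most `d`. -/
noncomputable def Pol (ι : Type*) [Fintype ι] [DecidableEq ι] (d : ℕ) :
    Submodule ℝ ((ι → Bool) → ℝ) :=
  Submodule.span ℝ {g | ∃ S : Finset ι, S.card ≤ d ∧ g = chiG S}

lemma sg_mul_self (b : Bool) : sg b * sg b = 1 := by cases b <;> simp [sg]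

lemma chiG_eq_prod (S : Finset ι) (x : ι → Bool) :
    chiG S x = ∏ i, if i ∈ S then sg (x i) else 1 := by
  simp [chiG, Finset.prod_ite_mem]

lemma chiG_mul (S T : Finset ι) (x : ι → Bool) :
    chiG S x * chiG T x = chiG (symmDiff S T) x := by
  simp only [chiG_eq_prod, ← Finset.prod_mul_distrib]
  refine Finset.prod_congr rfl fun i _ => ?_
  by_cases h1 : i ∈ S <;> by_cases h2 : i ∈ T <;> simp [h1, h2, Finset.mem_symmDiff, sg_mul_self]

lemma chiG_mem (S : Finset ι) {d : ℕ} (h : S.card ≤ d) : chiG S ∈ Pol ι d :=
  Submodule.subset_span ⟨S, h, rfl⟩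

lemma Pol_mono {a b : ℕ} (h : a ≤ b) : Pol ι a ≤ Pol ι b := by
  refine Submodule.span_mono ?_
  rintro g ⟨S, hS, rfl⟩
  exact ⟨S, hS.trans h, rfl⟩

lemma one_mem_Pol (d : ℕ) : (fun _ => (1 : ℝ)) ∈ Pol ι d := by
  have : (fun _ : ι → Bool => (1 : ℝ)) = chiG ∅ := by
    funext x; simp [chiG]
  rw [this]
  exact chiG_mem ∅ (by simp)

lemma const_mem_Pol (c : ℝ) (d : ℕ) : (fun _ => c) ∈ Pol ι d := by
  have := (Pol ι d).smul_mem c (one_mem_Pol (ι := ι) d)
  convert this using 1
  funext x
  simp

lemma sg_mem_Pol (i : ι) : (fun x : ι → Bool => sg (x i)) ∈ Pol ι 1 := by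
  have : (fun x : ι → Bool => sg (x i)) = chiG {i} := by
    funext x; simp [chiG]
  rw [this]
  exact chiG_mem _ (by simp)

lemma mul_mem_Pol {a b : ℕ} {g h : (ι → Bool) → ℝ} (hg : g ∈ Pol ι a) (hh : h ∈ Pol ι b) :
    (fun x => g x * h x) ∈ Pol ι (a + b) := by
  induction hg using Submodule.span_induction with
  | mem g hg =>
    obtain ⟨S, hS, rfl⟩ := hg
    induction hh using Submodule.span_induction with
    | mem h hh =>
      obtain ⟨T, hT, rfl⟩ := hh
      have : (fun x => chiG S x * chiG T x) = chiG (symmDiff S T) := by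
        funext x; exact chiG_mul S T x
      rw [this]
      refine chiG_mem _ ?_
      calc (symmDiff S T).card ≤ (S ∪ T).card := by
            refine Finset.card_le_card ?_
            intro i hi
            simp only [Finset.mem_symmDiff] at hi
            simp only [Finset.mem_union]
            tauto
        _ ≤ S.card + T.card := Finset.card_union_le _ _
        _ ≤ a + b := Nat.add_le_add hS hT
    | zero =>
      convert (Pol ι (a + b)).zero_mem using 1
      funext x; simp
    | add u v _ _ hu hv =>
      have := (Pol ι (a + b)).add_mem hu hv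
      convert this using 1; funext x; simp [mul_add]
    | smul c u _ hu =>
      have := (Pol ι (a + b)).smul_mem c hu
      convert this using 1; funext x; simp; ring
  | zero =>
    convert (Pol ι (a + b)).zero_mem using 1
    funext x; simp
  | add u v _ _ hu hv =>
    have := (Pol ι (a + b)).add_mem hu hv
    convert this using 1; funext x; simp [add_mul]
  | smul c u _ hu =>
    have := (Pol ι (a + b)).smul_mem c hu
    convert this using 1; funext x; simp; ring

lemma sum_fun_mem_Pol {α : Type*} (s : Finset α) (g : α → (ι → Bool) → ℝ) {d : ℕ}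
    (h : ∀ a ∈ s, g a ∈ Pol ι d) : (fun x => ∑ a ∈ s, g a x) ∈ Pol ι d := by
  have := Submodule.sum_mem (Pol ι d) h
  convert this using 1
  funext x
  simp [Finset.sum_apply]

lemma sum_chiG_eq_zero {S : Finset ι} (hS : S.Nonempty) : ∑ x : ι → Bool, chiG S x = 0 := by
  obtain ⟨i, hi⟩ := hS
  refine Finset.sum_involution (fun x _ => Function.update x i (!x i)) ?_ ?_ (by simp) ?_
  · intro x _
    have : chiG S (Function.update x i (!x i)) = - chiG S x := by
      simp only [chiG]
      rw [← Finset.mul_prod_erase S _ hi, ← Finset.mul_prod_erase S (fun j => sg (x j)) hi]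
      have h1 : ∏ j ∈ S.erase i, sg (Function.update x i (!x i) j) = ∏ j ∈ S.erase i, sg (x j) := by
        refine Finset.prod_congr rfl fun j hj => ?_
        rw [Function.update_of_ne (Finset.ne_of_mem_erase hj)]
      rw [h1]
      simp only [Function.update_self]
      cases x i <;> simp [sg]
    rw [this]; ring
  · intro x _ _ h
    have := congrFun h i
    simp at this
  · intro x _
    funext j
    by_cases h : j = i
    · subst h; simp
    · simp [Function.update_of_ne h]

/-- General Fourier coefficient. -/
noncomputable def coefG (f : (ι → Bool) → ℝ) (S : Finset ι) : ℝ :=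
  (∑ x, f x * chiG S x) / 2 ^ Fintype.card ι

lemma coefG_eq_zero_of_mem {d : ℕ} {g : (ι → Bool) → ℝ} (hg : g ∈ Pol ι d) {S : Finset ι}
    (hS : d < S.card) : coefG g S = 0 := by
  unfold coefG
  suffices h : ∑ x, g x * chiG S x = 0 by rw [h]; simp
  induction hg using Submodule.span_induction with
  | mem g hg =>
    obtain ⟨T, hT, rfl⟩ := hg
    simp_rw [chiG_mul]
    apply sum_chiG_eq_zero
    rw [Finset.nonempty_iff_ne_empty]
    intro h
    have : T = S := by
      have := symmDiff_eq_bot.mp (by simpa using h)
      exact this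
    subst this
    omega
  | zero => simp
  | add u v _ _ hu hv =>
    simp only [Pi.add_apply, add_mul, Finset.sum_add_distrib, hu, hv, add_zero]
  | smul c u _ hu =>
    simp only [Pi.smul_apply, smul_eq_mul, mul_assoc, ← Finset.mul_sum, hu, mul_zero]

/-- Precomposition with a map of index types preserves the degree bound. -/
lemma Pol_comap {κ : Type*} [Fintype κ] [DecidableEq κ] (e : κ → ι) (he : Function.Injective e)
    {d : ℕ} {g : (κ → Bool) → ℝ} (hg : g ∈ Pol κ d) :
    (fun x : ι → Bool => g (fun k => x (e k))) ∈ Pol ι d := by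
  induction hg using Submodule.span_induction with
  | mem g hg =>
    obtain ⟨T, hT, rfl⟩ := hg
    have : (fun x : ι → Bool => chiG T (fun k => x (e k))) = chiG (T.image e) := by
      funext x
      simp only [chiG]
      rw [Finset.prod_image (fun a _ b _ h => he h)]
    rw [this]
    exact chiG_mem _ (Finset.card_image_le.trans hT)
  | zero =>
    exact (Pol ι d).zero_mem
  | add u v _ _ hu hv =>
    exact (Pol ι d).add_mem hu hv
  | smul c u _ hu =>
    exact (Pol ι d).smul_mem c hu

end Vale.Agent.Lib.P047L
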