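import Vale.Agent.Lib.P047L.Defs

namespace Vale.Agent.Lib.P047L

/-- Indicator of the subcube fixing the coordinates of `A` to true and those of `B` to false. -/
noncomputable def termInd {n : ℕ} (A B : Finset (Fin n)) (x : Fin n → Bool) : ℝ :=
  if (∀ i ∈ A, x i = true) ∧ (∀ i ∈ B, x i = false) then 1 else 0

end Vale.Agent.Lib.P047L
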